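import Crest.Agent.R179.HypLoop_998
import Crest.Agent.N255.Ra.Cube

-- ▼ part N233/Hyp/QI
section

/-!
# Row 233 (helper43): hyperbolicity passes to quasi-isometrically embedded groups

The target is any pseudometric with the four point condition (no geodesics are needed).
-/

set_option autoImplicit false

namespace Crest.Agent.N233.Hyp

open Crest.GroupTheory Crest.Agent.R179 Crest.Agent.R179.HM998 Crest.Agent.R179.HL998

variable {P : Type*}

/-- twice the Gromov product -/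
def gp (d : P → P → ℝ) (w x y : P) : ℝ := d w x + d w y - d x y

/-- a pseudometric with the four point condition -/
structure FP (d : P → P → ℝ) (δ : ℝ) : Prop where
  self : ∀ x, d x x = 0
  comm : ∀ x y, d x y = d y x
  tri : ∀ x y z, d x z ≤ d x y + d y z
  nonneg : 0 ≤ δ
  fp : ∀ w x y z, min (gp d w x y) (gp d w y z) - δ ≤ gp d w x z

variable {d : P → P → ℝ} {δ : ℝ}

theorem FP.comap (h : FP d δ) {Q : Type*} (φ : Q → P) : FP (fun a b => d (φ a) (φ b)) δ :=
  ⟨fun _ => h.self _, fun _ _ => h.comm _ _, fun _ _ _ => h.tri _ _ _, h.nonneg,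
    fun _ _ _ _ => h.fp _ _ _ _⟩


theorem FP.le (h : FP d δ) {w x z : P} (y : P) {t : ℝ} (h1 : t ≤ gp d w x y) (h2 : t ≤ gp d w y z) :
    t - δ ≤ gp d w x z := le_trans (by linarith [le_min h1 h2]) (h.fp w x y z)

theorem FP.gp_le (h : FP d δ) (w x y : P) : gp d w x y ≤ 2 * d w x ∧ gp d w x y ≤ 2 * d w y := by
  have h1 := h.tri w x y
  have h2 := h.tri w y x
  rw [h.comm y x] at h2
  unfold gp
  constructor <;> linarith

/-- chains that stay far from `p` -/
theorem FP.chain (h : FP d δ) (p : P) (a : ℕ → P) {r L : ℝ} (hL : 0 ≤ L) (k : ℕ) :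
    ∀ i n, n ≤ 2 ^ k → (∀ s, i ≤ s → s ≤ i + n → r ≤ d p (a s)) →
      (∀ s, i ≤ s → s < i + n → d (a s) (a (s + 1)) ≤ L) →
      2 * r - L - k * δ ≤ gp d p (a i) (a (i + n)) := by
  induction k with
  | zero =>
    intro i n hn h1 h2
    have e1 := h1 i le_rfl (by omega)
    have e2 := h1 (i + n) (by omega) le_rfl
    obtain rfl | rfl : n = 0 ∨ n = 1 := by omega
    · simp only [gp, Nat.add_zero, h.self]; push_cast; linarith
    · have := h2 i le_rfl (by omega)
      simp only [gp]; push_cast; linarith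
  | succ k ih =>
    intro i n hn h1 h2
    have e1 := ih i (n / 2) (by omega) (fun s a b => h1 s a (by omega)) fun s a b => h2 s a (by omega)
    have e2 := ih (i + n / 2) (n - n / 2) (by omega) (fun s a b => h1 s (by omega) (by omega))
      fun s a b => h2 s (by omega) (by omega)
    rw [show i + n / 2 + (n - n / 2) = i + n by omega] at e2
    have := h.le _ e1 e2
    push_cast
    linarith

theorem exists_log (n : ℕ) : ∃ k : ℕ, n ≤ 2 ^ k ∧ k * k ≤ 4 * n := by
  have key : ∀ k : ℕ, (k + 1) * (k + 1) ≤ 4 * 2 ^ k := fun k => by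
    induction k with
    | zero => norm_num
    | succ k ih =>
      rcases Nat.lt_or_ge k 2 with hk | hk
      · interval_cases k <;> norm_num
      · rw [pow_succ]; nlinarith
  refine ⟨Nat.clog 2 n, Nat.le_pow_clog one_lt_two n, ?_⟩
  rcases Nat.lt_or_ge 1 n with hn | hn
  · have h1 := Nat.pow_pred_clog_lt_self one_lt_two hn
    have h2 := Nat.clog_pos one_lt_two hn
    have h3 := key (Nat.clog 2 n).pred
    rw [show (Nat.clog 2 n).pred + 1 = Nat.clog 2 n from Nat.succ_pred_eq_of_pos h2] at h3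
    omega
  · rw [Nat.clog_of_right_le_one hn]; omega

/-- quasi-geodesic sequences -/
structure QG (d : P → P → ℝ) (L : ℕ) (a : ℕ → P) (N : ℕ) : Prop where
  up : ∀ i j, i ≤ j → j ≤ N → d (a i) (a j) ≤ L * (j - i : ℝ)
  lo : ∀ i j, i ≤ j → j ≤ N → (j - i : ℝ) ≤ L * (d (a i) (a j) + 1)

theorem arith {M A c : ℝ} (hA : 0 ≤ A) (hc : 0 ≤ c) (h : A < M → (M - A) ^ 2 ≤ c * (M + 1)) :
    M ≤ 2 * A + c + 1 := by
  by_contra hM
  push Not at hM
  have := h (by linarith)
  nlinarith

/-- **Morse lemma** for Gromov products -/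
theorem FP.morse (h : FP d δ) (L : ℕ) : ∃ H : ℝ, ∀ (a : ℕ → P) (N : ℕ), QG d L a N →
    ∀ i m j, i ≤ m → m ≤ j → j ≤ N → gp d (a m) (a i) (a j) ≤ H := by
  classical
  have hδ := h.nonneg
  have hL : (0 : ℝ) ≤ L := L.cast_nonneg
  set A : ℝ := 2 * δ + 2 * L + 2 * L ^ 2 * (3 * L + 2 * δ + 1) with hA
  set B : ℝ := 2 * L ^ 2 * δ with hB
  refine ⟨2 * A + B ^ 2 * (4 * (2 * L * 2)) + 1, fun a N hq => ?_⟩
  let T := ((Finset.range (N + 1)) ×ˢ (Finset.range (N + 1)) ×ˢ (Finset.range (N + 1))).filter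
    fun t => t.1 ≤ t.2.1 ∧ t.2.1 ≤ t.2.2
  have hT : ∀ i m j, (i, m, j) ∈ T ↔ i ≤ m ∧ m ≤ j ∧ j ≤ N := fun i m j => by
    simp only [T, Finset.mem_filter, Finset.mem_product, Finset.mem_range]; omega
  obtain ⟨⟨i, m, j⟩, ht, hmax⟩ := T.exists_max_image
    (fun t => gp d (a t.2.1) (a t.1) (a t.2.2)) ⟨(0, 0, 0), (hT _ _ _).2 (by omega)⟩
  obtain ⟨him, hmj, hjN⟩ := (hT _ _ _).1 ht
  set M := gp d (a m) (a i) (a j) with hM
  have hmax' : ∀ i m j, i ≤ m → m ≤ j → j ≤ N → gp d (a m) (a i) (a j) ≤ M :=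
    fun i m j h1 h2 h3 => hmax (i, m, j) ((hT _ _ _).2 ⟨h1, h2, h3⟩)
  suffices hs : M ≤ 2 * A + B ^ 2 * (4 * (2 * L * 2)) + 1 from
    fun i m j h1 h2 h3 => (hmax' i m j h1 h2 h3).trans hs
  refine arith (by positivity) (by positivity) fun hAM => ?_
  have hA0 : 0 ≤ A := by positivity
  set r := L * (⌈M⌉₊ + 1) with hr
  have hrM : (L : ℝ) * (M + 1) ≤ r := by
    rw [hr]; push_cast; gcongr; exact Nat.le_ceil M
  have hrM' : (r : ℝ) ≤ L * (2 * (M + 1)) := by
    have := (Nat.ceil_lt_add_one (show 0 ≤ M by linarith)).le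
    rw [hr]; push_cast; gcongr; linarith
  have hLpos : 0 < L := by
    refine Nat.pos_of_ne_zero fun h0 => ?_
    have h1 := hq.up i m him (hmj.trans hjN)
    have h2 := (h.gp_le (a m) (a i) (a j)).1
    rw [h.comm (a m)] at h2
    simp only [h0, Nat.cast_zero, zero_mul] at h1
    linarith
  have hL' : (0 : ℝ) < L := by exact_mod_cast hLpos
  -- shorten the interval
  obtain ⟨i', h1, h2, h3, h4⟩ : ∃ i', i ≤ i' ∧ i' ≤ m ∧ m ≤ i' + r ∧ M ≤ gp d (a m) (a i') (a i) := by
    by_cases hc : m ≤ i + r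
    · refine ⟨i, le_rfl, him, hc, ?_⟩
      have := (h.gp_le (a m) (a i) (a j)).1
      simp only [gp, h.self]; linarith
    · refine ⟨m - r, by omega, by omega, by omega, ?_⟩
      have e1 := hmax' i (m - r) m (by omega) (by omega) (by omega)
      have e2 := hq.lo (m - r) m (by omega) (by omega)
      rw [Nat.cast_sub (by omega), sub_sub_cancel] at e2
      have e3 := le_of_mul_le_mul_left (hrM.trans e2) hL'
      simp only [gp] at e1 ⊢
      rw [h.comm (a i) (a m)] at e1
      rw [h.comm (a m) (a (m - r))]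
      linarith
  obtain ⟨j', g1, g2, g3, g4⟩ : ∃ j', j' ≤ j ∧ m ≤ j' ∧ j' ≤ m + r ∧ M ≤ gp d (a m) (a j) (a j') := by
    by_cases hc : j ≤ m + r
    · refine ⟨j, le_rfl, hmj, hc, ?_⟩
      have := (h.gp_le (a m) (a i) (a j)).2
      simp only [gp, h.self]; linarith
    · refine ⟨m + r, by omega, by omega, by omega, ?_⟩
      have e1 := hmax' m (m + r) j (by omega) (by omega) (by omega)
      have e2 := hq.lo m (m + r) (by omega) (by omega)
      rw [Nat.cast_add, add_sub_cancel_left] at e2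
      have e3 := le_of_mul_le_mul_left (hrM.trans e2) hL'
      simp only [gp] at e1 ⊢
      rw [h.comm (a (m + r)) (a m)] at e1
      rw [h.comm (a j) (a (m + r))]
      linarith
  have hG : M - 2 * δ ≤ gp d (a m) (a i') (a j') := by
    have e1 := h.le (a i) h4 le_rfl
    have e2 := h.le (a j) e1 (le_trans (by linarith) g4)
    linarith
  set G := M - 2 * δ with hGd
  have step : ∀ s, s < N → d (a s) (a (s + 1)) ≤ L := fun s hs => by
    simpa using hq.up s (s + 1) (by omega) hs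
  have hG0 : 0 ≤ G := by
    have : 0 ≤ 2 * (L : ℝ) + 2 * L ^ 2 * (3 * L + 2 * δ + 1) := by positivity
    linarith
  -- first and last entrance into the ball
  have ex1 : ∃ k, i' ≤ k ∧ d (a m) (a k) ≤ G / 2 := ⟨m, h2, by rw [h.self]; linarith⟩
  obtain ⟨k, ⟨k1, k2⟩, k3⟩ : ∃ k, (i' ≤ k ∧ d (a m) (a k) ≤ G / 2) ∧
      ∀ s, s < k → ¬ (i' ≤ s ∧ d (a m) (a s) ≤ G / 2) :=
    ⟨Nat.find ex1, Nat.find_spec ex1, fun s hs => Nat.find_min ex1 hs⟩
  have k4 : k ≤ m := by
    by_contra hc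
    exact k3 m (by omega) ⟨h2, by rw [h.self]; linarith⟩
  have k5 : ∀ s, i' ≤ s → s ≤ k → G / 2 - L ≤ d (a m) (a s) := fun s s1 s2 => by
    rcases s2.lt_or_eq with s2 | rfl
    · have := k3 s s2
      push Not at this
      linarith [this s1]
    · rcases s1.lt_or_eq with s1 | rfl
      · obtain ⟨t, rfl⟩ : ∃ t, s = t + 1 := ⟨s - 1, by omega⟩
        have e1 := k3 t (by omega)
        push Not at e1
        have e2 := h.tri (a m) (a (t + 1)) (a t)
        rw [h.comm (a (t + 1))] at e2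
        linarith [e1 (by omega), step t (by omega)]
      · linarith [(h.gp_le (a m) (a i') (a j')).1]
  obtain ⟨l, l1, l2, l3⟩ : ∃ l, l ≤ j' ∧ d (a m) (a l) ≤ G / 2 ∧
      ∀ s, l < s → s ≤ j' → ¬ d (a m) (a s) ≤ G / 2 :=
    ⟨Nat.findGreatest (fun s => d (a m) (a s) ≤ G / 2) j', Nat.findGreatest_le _,
      Nat.findGreatest_spec (P := fun s => d (a m) (a s) ≤ G / 2) g2 (by rw [h.self]; linarith),
      fun s s1 s2 => Nat.findGreatest_is_greatest s1 s2⟩
  have l4 : m ≤ l := by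
    by_contra hc
    exact l3 m (by omega) g2 (by rw [h.self]; linarith)
  have l5 : ∀ s, l ≤ s → s ≤ j' → G / 2 - L ≤ d (a m) (a s) := fun s s1 s2 => by
    rcases s1.lt_or_eq with s1 | rfl
    · linarith [not_le.1 (l3 s s1 s2)]
    · rcases s2.lt_or_eq with s2 | rfl
      · have e1 := not_le.1 (l3 (l + 1) (by omega) s2)
        linarith [h.tri (a m) (a l) (a (l + 1)), step l (by omega)]
      · linarith [(h.gp_le (a m) (a i') (a l)).2]
  obtain ⟨q, q1, q2⟩ := exists_log r
  have c1 := h.chain (a m) a hL q i' (k - i') (by omega) (fun s a b => k5 s a (by omega))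
    fun s a b => step s (by omega)
  have c2 := h.chain (a m) a hL q l (j' - l) (by omega) (fun s a b => l5 s a (by omega))
    fun s a b => step s (by omega)
  rw [show i' + (k - i') = k by omega] at c1
  rw [show l + (j' - l) = j' by omega] at c2
  have hqδ : 0 ≤ q * δ := by positivity
  have c3 : G - 3 * L - q * δ - δ - δ ≤ gp d (a m) (a k) (a l) := by
    refine h.le (a j') (h.le (a i') ?_ (by linarith)) ?_
    · simp only [gp] at c1 ⊢; rw [h.comm (a k)]; linarith
    · simp only [gp] at c2 ⊢; rw [h.comm (a j')]; linarith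
  have c4 : d (a k) (a l) ≤ 3 * L + q * δ + 2 * δ := by simp only [gp] at c3; linarith
  have c5 := hq.lo k l (by omega) (by omega)
  have c6 := hq.up k m k4 (by omega)
  have c7 := k5 k k1 le_rfl
  rw [h.comm] at c7
  have c8 : (m : ℝ) - k ≤ l - k := by have : (m : ℝ) ≤ l := by exact_mod_cast l4
                                      linarith
  have c9 : G / 2 - L ≤ L * (L * (3 * L + q * δ + 2 * δ + 1)) :=
    c7.trans (c6.trans (by gcongr; exact c8.trans (c5.trans (by gcongr))))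
  have c10 : M - A ≤ B * q := by rw [hA, hB]; nlinarith
  have q3 : (q : ℝ) * q ≤ 4 * r := by exact_mod_cast q2
  calc (M - A) ^ 2 ≤ (B * q) ^ 2 := by gcongr
    _ = B ^ 2 * (q * q) := by ring
    _ ≤ B ^ 2 * (4 * (L * (2 * (M + 1)))) :=
        mul_le_mul_of_nonneg_left (by linarith) (sq_nonneg B)
    _ ≤ _ := by
        have : 0 ≤ B ^ 2 * (L * (M + 1)) := by have : 0 ≤ M + 1 := by linarith
                                               positivity
        nlinarith

theorem walk_seq {Q : Type*} {e : Q → Q → ℕ} {B : Q → Prop} {x y : Q} {n : ℕ}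
    (h : Walk e B x y n) : ∃ q : ℕ → Q, q 0 = x ∧ q n = y ∧ (∀ i, i ≤ n → B (q i)) ∧
      ∀ i, i < n → e (q i) (q (i + 1)) ≤ 1 := by
  induction h with
  | nil x hx => exact ⟨fun _ => x, rfl, rfl, fun _ _ => hx, fun _ h => by omega⟩
  | cons x y z n hx hxy _ ih =>
    obtain ⟨q, h0, hn, h1, h2⟩ := ih
    refine ⟨fun i => Nat.casesOn i x q, rfl, hn, fun i hi => ?_, fun i hi => ?_⟩
    · cases i with
      | zero => exact hx
      | succ i => exact h1 i (by omega)
    · cases i with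
      | zero => subst h0; exact hxy
      | succ i => exact h2 i (by omega)

/-- quasi-isometric embeddings give quadratic divergence -/
theorem FP.div (h : FP d δ) {Q : Type*} {e : Q → Q → ℕ} (he : IsGM e) (φ : Q → P) (L : ℕ)
    (h1 : ∀ a b, d (φ a) (φ b) ≤ L * e a b) (h2 : ∀ a b, (e a b : ℝ) ≤ L * (d (φ a) (φ b) + 1)) :
    ∃ K, Div e K := by
  obtain ⟨H, hH⟩ := h.morse L
  have hδ := h.nonneg
  have hL : (0 : ℝ) ≤ L := L.cast_nonneg
  set A : ℝ := L * (|H| + L + 2) with hA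
  refine ⟨⌈A + 4 * (L * δ) ^ 2⌉₊, fun p x y R n hx hy hxy hw => ?_⟩
  obtain ⟨τ, hτ⟩ := he.geo x p
  obtain ⟨τ', hτ'⟩ := he.geo p y
  let ρ : ℕ → Q := fun i => if i ≤ R then τ i else τ' (i - R)
  have ρ0 : ρ 0 = x := by simp only [ρ, Nat.zero_le, if_true, hτ.zero]
  have ρ1 : ρ R = p := by simp only [ρ, le_refl, if_true]; rw [← hx, hτ.last]
  have ρ1' : ∀ i, R ≤ i → ρ i = τ' (i - R) := fun i hi => by
    rcases hi.lt_or_eq with hi | rfl
    · exact if_neg (by omega)
    · rw [ρ1, Nat.sub_self, hτ'.zero]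
  have ρ2 : ρ (2 * R) = y := by
    rw [ρ1' _ (by omega), show 2 * R - R = e p y by omega, hτ'.last]
  have up : ∀ i j, i ≤ j → j ≤ 2 * R → e (ρ i) (ρ j) ≤ j - i := fun i j hij hj => by
    have a1 : ∀ i j, i ≤ j → j ≤ R → e (ρ i) (ρ j) = j - i := fun i j hij hj => by
      simp only [ρ, if_pos hj, if_pos (hij.trans hj)]; exact hτ.dist i j hij (by omega)
    have a2 : ∀ i j, R ≤ i → i ≤ j → j ≤ 2 * R → e (ρ i) (ρ j) = j - i := fun i j hi hij hj => by
      rw [ρ1' i hi, ρ1' j (by omega), hτ'.dist _ _ (by omega) (by omega)]; omega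
    rcases le_total j R with c | c
    · exact (a1 i j hij c).le
    rcases le_total R i with c' | c'
    · exact (a2 i j c' hij hj).le
    · have := he.tri (ρ i) (ρ R) (ρ j)
      rw [a1 i R c' le_rfl, a2 R j le_rfl c hj] at this
      omega
  have eq : ∀ i j, i ≤ j → j ≤ 2 * R → (e (ρ i) (ρ j) : ℝ) = j - i := fun i j hij hj => by
    have a1 := he.tri (ρ 0) (ρ i) (ρ (2 * R))
    have a2 := he.tri (ρ i) (ρ j) (ρ (2 * R))
    have a3 := up 0 i (by omega) (by omega)
    have a4 := up j (2 * R) hj le_rfl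
    have a5 := up i j hij hj
    rw [ρ0, ρ2] at *
    rw [← Nat.cast_sub hij]
    congr 1
    omega
  have hq : QG d L (fun i => φ (ρ i)) (2 * R) :=
    ⟨fun i j hij hj => eq i j hij hj ▸ h1 _ _, fun i j hij hj => eq i j hij hj ▸ h2 _ _⟩
  have c1 := hH _ _ hq 0 R (2 * R) (by omega) (by omega) le_rfl
  simp only [ρ0, ρ1, ρ2] at c1
  obtain ⟨q, q0, qn, q1, q2⟩ := walk_seq hw
  obtain ⟨k, k1, k2⟩ := exists_log n
  have k3 : (k : ℝ) * k ≤ 4 * n := by exact_mod_cast k2
  have hK := Nat.le_ceil (A + 4 * (L * δ) ^ 2)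
  have hA0 : 0 ≤ A := by positivity
  have hR0 : (0 : ℝ) ≤ R := R.cast_nonneg
  have hn0 : (0 : ℝ) ≤ n := n.cast_nonneg
  have key : (R : ℝ) ≤ A + L * δ * k := by
    rcases Nat.eq_zero_or_pos L with h0 | hpos
    · have := h2 x p
      rw [h0, hx] at this
      have : (0 : ℝ) ≤ L * δ * k := by positivity
      simp only [Nat.cast_zero, zero_mul] at *
      linarith
    have hL' : (0 : ℝ) < L := by exact_mod_cast hpos
    have c2 := h.chain (φ p) (fun i => φ (q i)) (r := R / L - 1) hL k 0 n k1 (fun s _ hs => by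
      have a1 := h2 p (q s)
      have a2 : (R : ℝ) ≤ e p (q s) := by exact_mod_cast q1 s (by omega)
      rw [sub_le_iff_le_add, div_le_iff₀' hL']
      linarith) fun s _ hs => (h1 _ _).trans (by
        have : (e (q s) (q (s + 1)) : ℝ) ≤ 1 := by exact_mod_cast q2 s (by omega)
        nlinarith)
    simp only [Nat.zero_add, q0, qn] at c2
    have c3 : (R : ℝ) / L ≤ |H| + L + 2 + δ * k := by
      have := le_abs_self H
      have : 0 ≤ (R : ℝ) / L := by positivity
      linarith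
    rw [div_le_iff₀' hL'] at c3
    rw [hA]; linarith
  have fin : (R : ℝ) * R ≤ (A + 4 * (L * δ) ^ 2) * (n + 2 * R) := by
    have hb : 0 ≤ (L * δ) ^ 2 := by positivity
    rcases le_total (R : ℝ) A with c | c
    · nlinarith [mul_nonneg hb hR0, mul_nonneg hb hn0, mul_nonneg hA0 hn0]
    · have e1 : (R - A) ^ 2 ≤ (L * δ * k) ^ 2 := pow_le_pow_left₀ (by linarith) (by linarith) 2
      have e2 : (L * δ * k) ^ 2 ≤ (L * δ) ^ 2 * (4 * n) := by
        rw [mul_pow]; gcongr; rw [sq]; exact k3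
      nlinarith [mul_nonneg hb hR0, mul_nonneg hA0 hn0, sq_nonneg A]
  have : (R : ℝ) * R ≤ ⌈A + 4 * (L * δ) ^ 2⌉₊ * (n + 2 * R) := fin.trans (by gcongr)
  exact_mod_cast this

section group
variable {G : Type*} [Group G] {S : Type*} {f : S → G}

theorem hyp_of_fp [Finite S] (hS : Subgroup.closure (Set.range f) = ⊤) {c : ℝ}
    (h : FP (fun a b => (ds f a b : ℝ)) c) : IsHyperbolicGroup G := by
  classical
  have hcoe : (((Set.finite_range f).toFinset : Finset G) : Set G) = Set.range f := by simp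
  refine ⟨(Set.finite_range f).toFinset, by rw [hcoe]; exact hS, c, h.nonneg, fun w x y z => ?_⟩
  rw [hcoe]
  have e : ∀ w a b : G, gromovProduct (Set.range f) w a b =
      gp (fun a b => (ds f a b : ℝ)) w a b / 2 := fun w a b => by
    simp only [gp, h.comm w]; rfl
  have := h.fp w x y z
  have := h.nonneg
  simp only [e]
  rw [min_div_div_right (by norm_num)]
  linarith

theorem fp_of_div {Q : Type*} {e : Q → Q → ℕ} (he : IsGM e) {K : ℕ} (hK : Div e K) :
    FP (fun a b => (e a b : ℝ)) (6 * Hc K 3 + 2) := by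
  refine ⟨fun x => by simp [he.self], fun x y => by rw [he.comm], fun x y z => by
    exact_mod_cast he.tri x y z, by positivity, fun w x y z => ?_⟩
  simp only [gp, he.comm w]
  rcases four_point he hK w x y z with h | h
  · have h' : (e y w : ℝ) + e x z ≤ e z w + e x y + (6 * Hc K 3 + 2) := by exact_mod_cast h
    linarith [min_le_left ((e x w : ℝ) + e y w - e x y) ((e y w : ℝ) + e z w - e y z)]
  · have h' : (e y w : ℝ) + e x z ≤ e x w + e y z + (6 * Hc K 3 + 2) := by exact_mod_cast h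
    linarith [min_le_right ((e x w : ℝ) + e y w - e x y) ((e y w : ℝ) + e z w - e y z)]

/-- **a group that embeds quasi-isometrically into a hyperbolic space is hyperbolic** -/
theorem hyp_of_qi [Finite S] (hS : Subgroup.closure (Set.range f) = ⊤) (h : FP d δ) (φ : G → P)
    (L : ℕ) (h1 : ∀ a b, d (φ a) (φ b) ≤ L * ds f a b)
    (h2 : ∀ a b, (ds f a b : ℝ) ≤ L * (d (φ a) (φ b) + 1)) : IsHyperbolicGroup G :=
  let ⟨_, hK⟩ := h.div (isGM hS) φ L h1 h2
  hyp_of_fp hS (fp_of_div (isGM hS) hK)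

end group

end Crest.Agent.N233.Hyp
end

-- ▼ part N233/Hyp/Ra

/-!
# Row 233 (helper43): right angled Coxeter groups without squares satisfy the four point condition

The graph may be infinite; only the size of the cliques is bounded.
-/

set_option autoImplicit false

noncomputable section

namespace Crest.Agent.N233.Hyp

open Crest.Agent.N255.Ra

variable {S : Type} {Γ : SimpleGraph S}

/-- every `4`-cycle has a diagonal -/
def NoSq (Γ : SimpleGraph S) : Prop :=
  ∀ a b c d, Γ.Adj a b → Γ.Adj b c → Γ.Adj c d → Γ.Adj d a → a ≠ c → b ≠ d → Γ.Adj a c ∨ Γ.Adj b d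

/-- the cliques have at most `n` vertices -/
def ClB (Γ : SimpleGraph S) (n : ℕ) : Prop := ∀ σ : Finset S, Γ.IsClique (σ : Set S) → σ.card ≤ n

/-- lengths add up if there is no common descent -/
theorem len_mul_inv (y : W Γ) : ∀ x : W Γ, (∀ s ∈ In x, s ∉ In y) →
    len (x * y⁻¹) = len x + len y := by
  induction y using ind_red with
  | one => simp
  | mul y s hs ih =>
    intro x h
    have hx : s ∉ In x := fun hx => h s hx (mem_In_mul_self.2 hs)
    have := ih (x * gen Γ s) fun t ht ht' => by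
      rw [In_mul_of_nmem hx] at ht
      rcases ht with rfl | ⟨h1, h2⟩
      · exact hs ht'
      · exact h t h1 ((mem_In_mul_adj h2).2 ht')
    rw [mul_inv_rev, gen_inv, ← mul_assoc, this, len_nmem hx, len_nmem hs]
    omega

/-- `a` is a suffix of `y` -/
def Suf (a y : W Γ) : Prop := len (y * a⁻¹) + len a = len y

variable {a b y : W Γ} {s : S}

theorem Suf.of_le (h : len (y * a⁻¹) + len a ≤ len y) : Suf a y := by
  have := len_mul_le (y * a⁻¹) a
  rw [inv_mul_cancel_right] at this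
  exact le_antisymm h this

theorem Suf.mem (h : Suf a y) (hs : s ∈ In a) : s ∈ In y := by
  have h1 := len_mul_le (y * a⁻¹) (a * gen Γ s)
  rw [← mul_assoc, inv_mul_cancel_right] at h1
  have h2 := len_mem hs
  unfold Suf at h
  change len _ < len _
  omega

theorem Suf.trans {m : W Γ} (h : Suf m a) (h' : Suf a y) : Suf m y := by
  have := len_mul_le (y * a⁻¹) (a * m⁻¹)
  rw [← mul_assoc, inv_mul_cancel_right] at this
  unfold Suf at h h'
  exact Suf.of_le (by omega)

/-- medians -/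
theorem exists_med (n : ℕ) : ∀ x y : W Γ, len x = n →
    ∃ p, Suf p x ∧ Suf p y ∧ len (x * y⁻¹) + 2 * len p = len x + len y := by
  induction n using Nat.strong_induction_on with
  | _ n ih =>
    intro x y hn
    by_cases h : ∀ s ∈ In x, s ∉ In y
    · exact ⟨1, by simp [Suf], by simp [Suf], by simp [len_mul_inv y x h]⟩
    push Not at h
    obtain ⟨s, hx, hy⟩ := h
    have e1 := len_mem hx
    have e2 := len_mem hy
    obtain ⟨p, p1, p2, p3⟩ := ih _ (by omega) (x * gen Γ s) (y * gen Γ s) rfl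
    have e3 := len_nmem fun hp => mem_In_mul_self.1 (p1.mem hp) hx
    refine ⟨p * gen Γ s, ?_, ?_, ?_⟩
    · unfold Suf at p1 ⊢; rw [mul_inv_rev, gen_inv, ← mul_assoc]; omega
    · unfold Suf at p2 ⊢; rw [mul_inv_rev, gen_inv, ← mul_assoc]; omega
    · rw [mul_inv_rev, gen_inv, ← mul_assoc, mul_gen_gen] at p3; omega

/-- words, read from the right -/
def wr (Γ : SimpleGraph S) : List S → W Γ
  | [] => 1
  | s :: l => wr Γ l * gen Γ s

theorem len_wr_le (l : List S) : len (wr Γ l) ≤ l.length := by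
  induction l with
  | nil => simp [wr]
  | cons s l ih =>
    have := len_mul_le (wr Γ l) (gen Γ s)
    rw [len_gen] at this
    simp only [wr, List.length_cons]
    omega

theorem exists_wr (w : W Γ) : ∃ l, wr Γ l = w ∧ len (wr Γ l) = l.length := by
  induction w using ind_red with
  | one => exact ⟨[], rfl, by simp [wr]⟩
  | mul w s hs ih =>
    obtain ⟨l, rfl, h⟩ := ih
    exact ⟨s :: l, rfl, by rw [wr, len_nmem hs, h, List.length_cons]⟩

theorem wr_mem {A : Set S} {l : List S} (h : ∀ s ∈ l, s ∈ A) : wr Γ l ∈ WT Γ A := by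
  induction l with
  | nil => exact one_mem _
  | cons s l ih =>
    exact mul_mem (ih fun t ht => h t (List.mem_cons_of_mem _ ht)) (gen_mem_WT (h s (by simp)))

theorem red_cons {l : List S} (h : len (wr Γ (s :: l)) = (s :: l).length) :
    len (wr Γ l) = l.length ∧ s ∉ In (wr Γ l) := by
  have h1 := len_wr_le (Γ := Γ) l
  rw [wr, List.length_cons] at h
  by_cases hs : s ∈ In (wr Γ l)
  · have := len_mem hs; omega
  · have := len_nmem hs; exact ⟨by omega, hs⟩

theorem Suf.cons {l : List S} (h : len (wr Γ (s :: l)) = (s :: l).length)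
    (hy : Suf (wr Γ (s :: l)) y) : s ∈ In y ∧ Suf (wr Γ l) (y * gen Γ s) := by
  have h1 := (red_cons h).2
  have h2 : s ∈ In y := hy.mem (mem_In_mul_self.2 h1)
  have h3 := len_mem h2
  have h4 := len_nmem h1
  refine ⟨h2, ?_⟩
  unfold Suf at hy ⊢
  rw [wr, mul_inv_rev, gen_inv, ← mul_assoc] at hy
  omega

theorem adj_one (l : List S) : ∀ y : W Γ, len (wr Γ l) = l.length → Suf (wr Γ l) y → s ∈ In y →
    s ∉ In (wr Γ l) → (∀ t ∈ l, Γ.Adj s t) ∧ s ∈ In (y * (wr Γ l)⁻¹) := by
  induction l with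
  | nil => intro y _ _ h _; simpa [wr] using h
  | cons t l ih =>
    intro y h1 h2 h3 h4
    obtain ⟨h5, h6⟩ := h2.cons h1
    have hne : t ≠ s := by
      rintro rfl
      exact h4 (mem_In_mul_self.2 (red_cons h1).2)
    have ha : Γ.Adj t s := In_clique y h5 h3 hne
    obtain ⟨e1, e2⟩ := ih _ (red_cons h1).1 h6 ((mem_In_mul_adj ha).2 h3)
      fun h => h4 ((mem_In_mul_adj ha).2 h)
    refine ⟨by simpa [ha.symm] using e1, ?_⟩
    rwa [wr, mul_inv_rev, gen_inv, ← mul_assoc]

theorem adj_all {l' : List S} (h' : len (wr Γ l') = l'.length) (l : List S) :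
    ∀ y : W Γ, len (wr Γ l) = l.length → Suf (wr Γ l) y → Suf (wr Γ l') y →
      len (wr Γ l * (wr Γ l')⁻¹) = len (wr Γ l) + len (wr Γ l') →
      ∀ s ∈ l, ∀ t ∈ l', Γ.Adj s t := by
  induction l with
  | nil => simp
  | cons s l ih =>
    intro y h1 h2 h3 h4
    obtain ⟨h5, h6⟩ := h2.cons h1
    obtain ⟨h7, h8⟩ := red_cons h1
    have h9 := len_nmem h8
    have hs : s ∉ In (wr Γ l') := fun hs => by
      have e1 := len_mem hs
      have e2 := len_mul_le (wr Γ l) (wr Γ l' * gen Γ s)⁻¹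
      rw [len_inv, mul_inv_rev, gen_inv, ← mul_assoc] at e2
      rw [wr] at h4
      omega
    obtain ⟨e1, e2⟩ := adj_one l' y h' h3 h5 hs
    have hc : Commute (gen Γ s) (wr Γ l')⁻¹ :=
      (comm_WT (A := {t | Γ.Adj s t}) (fun _ h _ => h) (wr_mem e1)).inv_right
    have := ih _ h7 h6 (by
      have := len_mem e2
      have := len_mem h5
      unfold Suf at h3 ⊢
      rw [mul_assoc, hc.eq, ← mul_assoc]
      omega) (by
      have a1 := len_mul_le (wr Γ l * (wr Γ l')⁻¹) (gen Γ s)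
      have a2 := len_mul_le (wr Γ l) (wr Γ l')⁻¹
      rw [wr, mul_assoc, hc.eq, ← mul_assoc] at h4
      rw [len_gen] at a1
      rw [len_inv] at a2
      omega)
    simpa using ⟨e1, this⟩

theorem len_le_of_clique {n : ℕ} (hn : ClB Γ n) {l : List S}
    (h : ∀ s ∈ l, ∀ t ∈ l, s ≠ t → Γ.Adj s t) : len (wr Γ l) ≤ n := by
  classical
  have hc : Γ.IsClique (l.toFinset : Set S) := fun s hs t ht =>
    h s (by simpa using hs) t (by simpa using ht)
  obtain ⟨σ, h1, h2⟩ := (mem_WT hc).1 (wr_mem (l := l) fun s hs => by simpa using hs)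
  have h3 := hc.subset (Finset.coe_subset.2 h1)
  rw [h2, len_pr h3]
  exact hn σ h3

/-- intervals are thin -/
theorem thin (hq : NoSq Γ) {n : ℕ} (hn : ClB Γ n) (ha : Suf a y) (hb : Suf b y)
    (h : len (a * b⁻¹) = len a + len b) : len a ≤ n ∨ len b ≤ n := by
  obtain ⟨l, rfl, h1⟩ := exists_wr a
  obtain ⟨l', rfl, h2⟩ := exists_wr b
  have h3 := adj_all h2 l y h1 ha hb h
  by_cases hc : ∀ s ∈ l, ∀ t ∈ l, s ≠ t → Γ.Adj s t
  · exact Or.inl (len_le_of_clique hn hc)
  push Not at hc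
  obtain ⟨s, hs, s', hs', e1, e2⟩ := hc
  exact Or.inr (len_le_of_clique hn fun t ht t' ht' e =>
    (hq s t s' t' (h3 s hs t ht) (h3 s' hs' t ht).symm (h3 s' hs' t' ht') (h3 s hs t' ht').symm
      e1 e).resolve_left e2)

theorem fp_core (hq : NoSq Γ) {n : ℕ} (hn : ClB Γ n) (x y z : W Γ) :
    len y + len (x * z⁻¹) ≤ len z + len (x * y⁻¹) + 2 * n ∨
      len y + len (x * z⁻¹) ≤ len x + len (y * z⁻¹) + 2 * n := by
  obtain ⟨p, p1, p2, p3⟩ := exists_med _ x y rfl
  obtain ⟨q, q1, q2, q3⟩ := exists_med _ y z rfl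
  obtain ⟨m, m1, m2, m3⟩ := exists_med _ p q rfl
  have a1 := m1.trans p1
  have a2 := m1.trans p2
  have a3 := m2.trans q2
  have a4 := len_mul_le (x * m⁻¹) (z * m⁻¹)⁻¹
  rw [len_inv, mul_inv_rev, inv_inv, ← mul_assoc, inv_mul_cancel_right] at a4
  have e : ∀ u v : W Γ, u * m⁻¹ * (v * m⁻¹)⁻¹ = u * v⁻¹ := fun u v => by group
  have := thin hq hn (a := p * m⁻¹) (b := q * m⁻¹) (y := y * m⁻¹)
    (by unfold Suf at *; rw [e]; omega) (by unfold Suf at *; rw [e]; omega)
    (by unfold Suf at *; rw [e]; omega)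
  unfold Suf at *
  omega

/-- **the four point condition** -/
theorem fp_racg (hq : NoSq Γ) {n : ℕ} (hn : ClB Γ n) :
    FP (fun a b : W Γ => (len (a⁻¹ * b) : ℝ)) (2 * n) := by
  have c : ∀ a b : W Γ, len (a⁻¹ * b) = len (b⁻¹ * a) := fun a b => by
    rw [← len_inv, mul_inv_rev, inv_inv]
  refine ⟨fun x => by simp, fun x y => by rw [c], fun x y z => ?_, by positivity, fun w x y z => ?_⟩
  · have := len_mul_le (x⁻¹ * y) (y⁻¹ * z)
    rw [← mul_assoc, mul_inv_cancel_right] at this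
    exact_mod_cast this
  · have e : ∀ u v : W Γ, u⁻¹ * w * (v⁻¹ * w)⁻¹ = u⁻¹ * v := fun u v => by group
    have := fp_core hq hn (x⁻¹ * w) (y⁻¹ * w) (z⁻¹ * w)
    simp only [e] at this
    simp only [gp, c w]
    rcases this with h | h
    · have h' : (len (y⁻¹ * w) : ℝ) + len (x⁻¹ * z) ≤ len (z⁻¹ * w) + len (x⁻¹ * y) + 2 * n := by
        exact_mod_cast h
      linarith [min_le_left ((len (x⁻¹ * w) : ℝ) + len (y⁻¹ * w) - len (x⁻¹ * y))
        ((len (y⁻¹ * w) : ℝ) + len (z⁻¹ * w) - len (y⁻¹ * z))]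
    · have h' : (len (y⁻¹ * w) : ℝ) + len (x⁻¹ * z) ≤ len (x⁻¹ * w) + len (y⁻¹ * z) + 2 * n := by
        exact_mod_cast h
      linarith [min_le_right ((len (x⁻¹ * w) : ℝ) + len (y⁻¹ * w) - len (x⁻¹ * y))
        ((len (y⁻¹ * w) : ℝ) + len (z⁻¹ * w) - len (y⁻¹ * z))]

end Crest.Agent.N233.Hyp

end
private theorem rz_4d98b34316 : type_of% @_root_.Crest.Agent.N233.Hyp.wr.eq_def := @_root_.Crest.Agent.N233.Hyp.wr.eq_def -- L87
private theorem rz_c64884b975 : type_of% @_root_.Crest.Agent.N233.Hyp.wr.eq_1 := @_root_.Crest.Agent.N233.Hyp.wr.eq_1 -- L87
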